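import Crest.Agent.X212.Rf65.Ec
import Crest.Agent.X212.Crt72.Lf

/-! Row 212, P-INV (helper14): the index of the cylinder at flat limits, the statement. -/

set_option autoImplicit false
noncomputable section
open Set

namespace Crest.Agent.X212.Inv14
open Nd18

variable (κ lam : Type) [Fintype κ] [Fintype lam] (k : ℕ)

/-- **P-INV**: one bound for the weight, all flat limits -/
def PInvStmt : Prop := ∀ X : XD κ lam, X.OK → Ink3.Nil X.N → (∃ b, Rf65.PY X.D b) →
  ∃ δ₀ > 0, ∀ δ ∈ Ioc 0 δ₀, ∀ β f, Rdc90.Bs X.D β → Fz κ lam k X f β δ ∧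
    X.bg.Ix (spO f univ) (cy β) k δ ((Rf65.dz X.D β : ℤ) - Rf65.dh X.D β)

end Crest.Agent.X212.Inv14
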