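import Crest.Agent.X212.Crt72.Dc4
import Crest.Agent.X212.Nk89.Dic
import Crest.Agent.X212.Nk89.Geo
import Crest.Agent.X212.Ixc61.Clo

/-! Row 212, P-INV (helper14): the unperturbed equations near an exact solution. -/

set_option autoImplicit false
set_option linter.unusedSectionVars false
noncomputable section
open scoped Manifold ContDiff Topology InnerProductSpace
open MeasureTheory Set Filter

namespace Crest.Agent.X212.Inv14
open An An.Pre Sob92 Wz78 Map77 Op78 Mod61 Nk89 Crt72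

variable {E : Type} [NormedAddCommGroup E] [NormedSpace ℝ E] [FiniteDimensional ℝ E]
  [MeasurableSpace E] [BorelSpace E]
  {HM : Type} [TopologicalSpace HM] {I : ModelWithCorners ℝ E HM} [I.Boundaryless]
  {M : Type} [TopologicalSpace M] [ChartedSpace HM M] [IsManifold I ∞ M]
  [MeasurableSpace M] [T2Space M] [BorelSpace M] [SecondCountableTopology M]
  {ι lam : Type} [Fintype ι] [Fintype lam]

section fam
variable {T : Type} [NormedAddCommGroup T] [NormedSpace ℝ T]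
  {𝔉 : Mod61.Fam I M ι lam T} {o : Ref 𝔉} {r n m k : ℕ} (h : 𝔉.OK)
  (hz : ∀ (y : Pnt o r) x, eD n m (bs y) x = 0 ∧ Map77.eC n m (bs y) x = 0)
include h hz

theorem rep0 (hk : 6 ≤ k) (y : Pnt o r) :
    RepE (𝔉.eq0 r n m) y (f0 o (Fs 𝔉) r n m k (y.pt k) + o.iY n m k (k + 1) 0) := by
  have a := adj_rem h
  have S := sup0 h
  have e : ∀ x, 𝔉.F0.val _ _ ((bd o).NH 𝔉.F0.toPre (Fs 𝔉 y.t) k (u0 o y.t) (hC o r k (y.pt k))) x =
      (bd o).pE x ((bd o).N (Fs 𝔉 y.t) (uy y) x) := fun x => by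
    have b := (a.f2_N (bs y) x).trans (hz y x).1
    have c := (a.s2_N (bs y) x).trans (hz y x).2
    rw [uy_bs] at b c
    exact (a.val_NH hk y x).trans (sub_eq_self.2 (ext2 (((f2_ps _ _).trans b).trans (map_zero _).symm)
      (((s2_ps _ _).trans c).trans (map_zero _).symm)))
  rw [map_zero, add_zero, f0]
  refine ⟨funext fun x => ?_, funext fun x => ?_, rfl, rfl⟩
  · refine (val_mulH S (by omega) (Cb_const _) maps_f2 _ x).trans ?_
    exact (congrArg _ (e x)).trans ((f2_ps _ _).trans (a.f2_N y x))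
  · refine (val_mulH S (by omega) (Cb_const _) maps_s2 _ x).trans ?_
    exact (congrArg _ (e x)).trans ((s2_ps _ _).trans (a.s2_N y x))

theorem aff0 : Aff o (Fs 𝔉) r n m (𝔉.eq0 r n m) := fun _ hj =>
  ⟨fun _ => 0, contDiffOn_const, rep0 h hz (by omega)⟩

/-- the index of the unperturbed equations is that of the local operator -/
theorem idx0 (hk : 6 ≤ k) (y : Pnt o r) {d : ℤ} : Idx k (𝔉.eq0 r n m) y d ↔
    Fred93.Fr ((bd o).FF 𝔉.F0.toPre (Fs 𝔉 y.t) k (uy y)) d := by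
  have a := adj_rem h
  have hf := a.repF (g := fun _ => 0) contDiffOn_const (rep0 h hz hk)
  rw [idx_iff h (by omega) hf y]
  refine iff_of_eq (congrArg (Fred93.Fr · d) (ContinuousLinearMap.ext fun x => ?_))
  have e1 := a.fderiv_aff hk y contDiffOn_const (rep0 h hz hk) hf x
  simp only [fderiv_fun_const, Pi.zero_apply, ContinuousLinearMap.zero_comp,
    ContinuousLinearMap.comp_zero, zero_apply, add_zero] at e1
  simp only [TG, _root_.add_apply, ContinuousLinearMap.comp_apply, e1,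
    (a.hy o y.ht).FF_eq (cb_uy h y)]

omit h hz in
/-- the unperturbed equations are local -/
theorem loc0 {y y' : Pnt o r} (ht : y.t = y'.t) {U : Set M} (hU : IsOpen U)
    (e : ∀ x ∈ U, y.α x = y'.α x ∧ y.φ x = y'.φ x) {x : M} (hx : x ∈ U) :
    vD (𝔉.eq0 r n m) y x = vD (𝔉.eq0 r n m) y' x ∧ vC (𝔉.eq0 r n m) y x = vC (𝔉.eq0 r n m) y' x := by
  have e1 : ∀ a, o.W y'.t y.α a =ᶠ[𝓝 x] o.W y'.t y'.α a := fun a =>
    eventually_of_mem (hU.mem_nhds hx) fun z hz => by simp only [Ref.W, Md.addC, (e z hz).1]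
  have e2 : o.Φ0 + y.φ =ᶠ[𝓝 x] o.Φ0 + y'.φ :=
    eventually_of_mem (hU.mem_nhds hx) fun z hz => by simp only [Pi.add_apply, (e z hz).2]
  simp only [vD, vC, indicator, Fam.eq0, eq0, Pnt.cfg, Wz78.dir, Wz78.nab, Md.Fg, curv, ht,
    dv_congr e2, dv_congr (e1 _), e2.eq_of_nhds, fun a => (e1 a).eq_of_nhds, and_self]

end fam

variable {κ : Type} [Fintype κ] [DecidableEq κ] {G : Fr I M ι} {d : Bd M ι κ}
  {Γ : ι → ι → ι → M → ℝ} {W : ι → M → En κ} {Φ : M → Eu κ}

theorem fr_up (H : d.Hy G G) {u : M → Cf ι κ} (cu : G.Cb u) {n : ℤ}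
    (h : Fred93.Fr (d.FF G.toPre G 0 u) n) (k : ℕ) : Fred93.Fr (d.FF G.toPre G k u) n := by
  obtain ⟨_, h1, h2⟩ := H.toTw.good (H.nc_full cu)
  rw [show d.FF G.toPre G _ u = _ from LH_eq H.toTw (H.nc_full cu) _] at h ⊢
  exact Cyf70.fr_level (Ell97.par h1 h2 (H.cliff_full H.P u)) h k

/-- gauge invariance of the linearisation at a flat reducible point -/
theorem gau0 (C : Cp d G Γ W) (H : d.Hy G G) (cu : G.Cb (base W Φ)) (hΦ : ∀ x, Φ x = 0)
    (fl : ∀ a b x ξ, d.g x ξ = ξ → adc (curv I G.e G.c W a b x) ξ = 0) (ξ : Sec I d.g) (x : M) :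
    (d.lin G (base W Φ)).app G ((d.d0 G (base W Φ)).app G ξ.1) x = 0 := by
  obtain ⟨su, -, pu⟩ := RepT_mem (Crt72.rp H.toTw (H.nc_d0 cu) 0) ξ
  have a := fun y => (d0_app (Φ := Φ) C ξ y).1
  have b : ∀ y, fp ((d.d0 G (base W Φ)).app G ξ.1 y) = 0 := fun y => by
    rw [(d0_app C ξ y).2, hΦ, map_zero, map_zero]
  refine (op_cut G.toPre C.sm_pC su pu x).trans (((congrArg _ (?_ : lin0 d G W Φ _ x = 0))).trans
    (map_zero _))
  refine ext2 ?_ (fm_ext fun s => ?_)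
  · simp [f2_lin0 su, b, cl, hΦ, Wz78.dir, Wz78.nab]
  · have c := (frm G).nab_comm (C.con_adw.sm · x) s.1 s.2 (ξ.2.1 x)
    rw [C.curv_adw, fl _ _ _ _ (ξ.2.2.2 x)] at c
    rw [s2_lin0 C.P su, dE, mm]
    simp only [a, nab_neg, b, hΦ, map_zero, smul_neg, Finset.sum_neg_distrib]
    rw [show rk1 (0 : Eu κ) 0 + rk1 0 0 = 0 by ext; simp, map_zero, sub_zero]
    exact Eq.trans (by abel) (neg_eq_zero.2 c)

end Crest.Agent.X212.Inv14
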