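import Crest.Agent.X212.Inv14.Val
import Crest.Agent.X212.Inv14.Eq0
import Crest.Agent.X212.Inv14.Defs
import Crest.Agent.X212.Ixz30.Chz

/-! Row 212, P-INV (helper14): the index of the cylinder at flat limits. -/

set_option autoImplicit false
set_option linter.unusedSectionVars false
noncomputable section
open scoped Manifold ContDiff Topology InnerProductSpace
open MeasureTheory Set Filter

namespace Crest.Agent.X212.Inv14
open An An.Pre M Sob92 Wz78 Cyf70 Map77 Op78 Mod61 Nk89 Crt72 Nd18 Rdc90 Rf65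

variable {κ lam η : Type} [Fintype κ] [Fintype lam] [Fintype η] [DecidableEq η] {Y : Mf 3}
  [CompactSpace Y.M] {D : YD Y.I Y.M κ lam} {β : YC Y.M κ lam} {O' : Set (Y.M × ℝ)} {δ r c : ℝ}
  {ν : η → κ → Y.M → ℝ} {k : ℕ}

theorem clopen_of (hO : O' = univ ∨ O' = ∅) : IsClopen O' := by
  rcases hO with rfl | rfl
  exacts [isClopen_univ, isClopen_empty]

theorem FZ.fr [DecidableEq κ] [Subsingleton η] {K : Type} [Fintype K] [DecidableEq K]
    {F : Fr Y.I Y.M κ} {G : Fr (IC Y.I) (Y.M × ℝ) (Option κ)} {d : Bd (Y.M × ℝ) (Option κ) K}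
    {W : Option κ → Y.M → En K} {Φ : Y.M → Eu K} (f : FZ F d W Φ ν r c)
    (z : Cz F d (cA W) fun x => Φ x.1) (w : Wz F G fun t => δ * Nk89.ab t) (Hy : d.Hy G G) (hδ : 0 < δ)
    (h1 : δ ^ 2 < r) (h2 : δ ^ 2 < c) (k : ℕ) :
    Fred93.Fr (d.FF G.toPre G k (base (cA W) fun x => Φ x.1))
      ((Module.finrank ℝ ↥(f.N ⊓ f.π₁.ker) : ℤ) - Module.finrank ℝ ↥(f.N ⊓ f.π₂.ker)) := by
  have cu := cb_base (fun a => w.wp.Cb.2 ((z.iW a).cb F.toPre)) (w.wp.Cb.2 (z.iΦ.cb F.toPre))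
  obtain ⟨L, k1, k2⟩ := z.dict w hδ Hy (z := fun _ _ => 0) (fun _ _ => map_zero _)
    (fun ξ u hu x => ⟨hu ▸ (gau0 (cp_wt z.cp w.wt) Hy cu (fun x => f.zr _)
      (by rw [w.wt.e, w.wt.c]; exact f.flat) ξ x).trans (map_zero _).symm, rfl⟩) (K := 0)
    (by
      rw [show w.wK 0 = 0 by simp [Wz.wK]]
      exact (Ir.of RepT_zero).congr fun u => funext fun x => (map_zero _).symm)
    (f.val (fun _ _ => rfl) hδ h1 h2 rfl)
  rw [k1.eq (Ir.of RepT_zero) fun u => funext fun x => by simp] at k2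
  exact fr_up Hy cu (by simpa using k2) k

variable (H : Bs D β) (hO : O' = univ ∨ O' = ∅)
include H hO

theorem cz [DecidableEq κ] : Cz D.F (bo D β O') (cA β.W) fun x => β.Φ x.1 := by
  have C := (cp_bz H.ok H.adm).ind isClopen_univ (clopen_of hO)
  have m := mh_bz H.ok H.adm
  have g : (bo D β O').g = (bz D β).g := indicator_univ _
  have g' : ∀ x, (bo D β O').g x = (bo D β O').g (x.1, 0) := fun x => by rw [g]; rfl
  have p : ∀ x, (bo D β O').p2 x = (bz D β).p2 x := fun x =>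
    (congrArg (idx _) (congrFun g x)).trans ((cp_bz H.ok H.adm).ok.p2 x).symm
  refine ⟨H.dim.le, C, ⟨iv_P (F := D.F), fun a => Iv.of (C.sρ a) fun _ => rfl, Iv.of C.sg g',
    Iv.of C.sm_p1 fun x => congrArg₂ idx (bz_inv x).1 (g' x),
    Iv.of C.sm_p2 fun x => congrArg₂ idx (congrArg₂ sdm (bz_inv x).1 rfl) (g' x),
    Iv.of C.ssp fun x => ?_, Iv.of C.ssm fun x => ?_⟩, riem_of_vol H.ok.G.vol,
    fun a => Iv.of (C.con.sm a) fun _ => rfl, Iv.of H.adm.adm.sm fun _ => rfl,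
    fun x => H.adm.tmp _, ⟨fun x ξ v h1 h2 => ?_, fun x ξ Φ φ a c h1 h2 => ?_⟩,
    fun x => by rw [H.zr, map_zero]⟩
  · rcases hO with rfl | rfl <;> rfl
  · rcases hO with rfl | rfl <;> rfl
  · rcases hO with rfl | rfl
    · rw [show (bo D β univ).sp = (bz D β).sp from indicator_univ _] at h2 ⊢
      exact m.gp x ξ v (g ▸ h1) h2
    · rw [← h2, show (bo D β ∅).sp x = 0 from indicator_of_notMem (notMem_empty x) _]; simp
  · rw [p]
    refine m.mu x ξ Φ φ a c (g ▸ h1) ?_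
    rcases hO with rfl | rfl
    · rwa [show (bo D β univ).sp = (bz D β).sp from indicator_univ _] at h2
    · rw [← h2, show (bo D β ∅).sp x = 0 from indicator_of_notMem (notMem_empty x) _]; simp

variable (h0 : ∀ x ∉ O', β.Φ x.1 = 0)

omit hO in
theorem sol0 (y : Pnt (refZ T0 δ H.adm h0) 0) (x : Y.M × ℝ) :
    eD 0 0 (bs y) x = 0 ∧ Map77.eC 0 0 (bs y) x = 0 := by
  have e : (refZ T0 δ H.adm h0).Φ0 + 0 = fun _ => 0 := funext fun x => (add_zero _).trans (H.zr _)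
  simp only [eD, Map77.eC, bs, Pnt.cfg, Fam.eq0, eq0, Ixz30.W_refZ, e]
  refine ⟨indicator_apply_eq_zero.2 fun _ => by simp [Wz78.dir, Wz78.nab], indicator_apply_eq_zero.2 fun _ => ?_⟩
  refine (congrArg₂ _ ((congrArg _ (H.flat x)).trans (map_zero _)) ?_).trans (sub_zero 0)
  simp [Md.mu, Md.q, rk1, ← Pi.zero_def]

/-- **the index at a flat reducible point** -/
theorem inv [Subsingleton η] (S : Psc D.F ν r) (hc : PS D c) (hδ : 0 < δ) (h1 : δ ^ 2 < r)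
    (h2 : δ ^ 2 < c) (hk : 6 ≤ k) :
    Inv (δ := δ) H.adm h0 k (eq0 D.B D.G 0 0 0) ((dz D β : ℤ) - dh D β) := by
  classical
  have ok : (famZ T0 D δ O').OK := ok_famZ H.ok H.dim.le hδ.le (clopen_of hO)
  have z := cz H hO
  have f := fz H (clopen_of hO) S hc z.cyO
  have e1 : Fs (famZ T0 D δ O') 0 = (famZ T0 D δ O').F0 := Ixc61.rem_self (famZ T0 D δ O').F0
  have e2 : uy (pt0 (refZ T0 δ H.adm h0) 0 (t := 0) trivial) = base (cA β.W) fun x => β.Φ x.1 :=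
    congrArg₂ base (Ixz30.W_refZ H.adm h0 0) (add_zero _)
  have Hy := (adj_rem ok).hy (refZ T0 δ H.adm h0) (t := 0) trivial
  rw [show rem _ _ = _ from e1] at Hy
  have := f.fr z (wz_ab wt_famZ) Hy hδ h1 h2 k
  rw [val H f ((sq_nonneg δ).trans_lt h2)] at this
  refine (idx0 ok (sol0 H h0) hk _).2 ?_
  rw [e2, show Fs _ (pt0 (refZ T0 δ H.adm h0) 0 (t := 0) trivial).t = _ from e1]
  exact this

/-- the hypotheses on the cylinder at a flat reducible point -/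
theorem cylOK [Subsingleton η] (S : Psc D.F ν r) (hc : PS D c) (hδ : 0 < δ) (h1 : δ ^ 2 < r)
    (h2 : δ ^ 2 < c) (hk : 6 ≤ k) : CylOK (δ := δ) H.adm h0 k (eq0 D.B D.G 0 0 0) := by
  refine ⟨aff0 (ok_famZ H.ok H.dim.le hδ.le (clopen_of hO)) (sol0 H h0),
    ⟨_, inv H hO h0 S hc hδ h1 h2 hk⟩, fun sg _ b ρ ε hε => ⟨b, fun y y' _ _ e => ?_⟩⟩
  have o : IsOpen {x : Y.M × ℝ | b < sg * x.2} := isOpen_lt continuous_const (by fun_prop)
  have l := fun x => loc0 (n := 0) (m := 0) (Subsingleton.elim y.t y'.t) o e (x := x)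
  constructor <;> refine ((Gl67.N_congr o.measurableSet fun x hx => eventually_of_mem
    (o.mem_nhds hx) fun z hz => ?_).trans Gl67.N_zero).trans_le zero_le
  exacts [sub_eq_zero.2 (l z hz).1, sub_eq_zero.2 (l z hz).2]

omit hO in
/-- flat reducible points are preserved by equivalences -/
theorem bs_eqv {β' : YC Y.M κ lam} (h : D.Adm β') {Φ : Y.M → β.m.V} (hΦ : ∀ y, Φ y = 0)
    (e : D.Eqv ⟨β.m, β.W, Φ, 0⟩ β') : Bs D β' := by
  obtain ⟨u, ζ, e⟩ := e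
  have l := (Eqv71.lg_refl H.ok.B H.ok.G isOpen_univ).lm H.adm.adm.ok h.adm.ok H.adm.adm.conn
    h.adm.conn e.m e.W
  exact ⟨H.ok, H.dim, h, fun y => (e.Φ (y, 0) trivial).trans
      ((congrArg _ ((congrArg _ (hΦ y)).trans (map_zero _))).trans (by simp [cs]; rfl)),
    fun x => (l.Fg (mem_univ x)).trans (((congrArg _ (H.flat x))).trans (map_zero _))⟩

omit H hO

theorem eZ_nil {N : ND Y.M lam} (h : Ink3.Nil N) : eZ N D = eq0 D.B D.G 0 0 0 := by
  rw [eZ, h.q1]; exact sub_zero _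

theorem spO_cases (f : Bool) : spO f (univ : Set (Y.M × ℝ)) = univ ∨ spO f (univ : Set (Y.M × ℝ)) = ∅ := by
  cases f
  exacts [.inr rfl, .inl rfl]

variable (κ lam) in
/-- **P-INV** -/
theorem pInv (hk : 6 ≤ k) : PInvStmt κ lam k := by
  rintro X hX hN ⟨b, hb, ⟨c, c0, hc⟩, ν, r, S⟩
  obtain ⟨δ₁, p1, hz⟩ := Ixz30.chz κ lam k
  have : Subsingleton (Fin b) := Fin.subsingleton_iff_le_one.2 hb
  have r0 := S.pos
  refine ⟨min (δ₁ / 2) (min (√r / 2) (√c / 2)), by positivity, fun δ ⟨hδ, h⟩ β f H => ?_⟩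
  have q : ∀ {a : ℝ}, 0 < a → δ ≤ √a / 2 → δ ^ 2 < a := fun ha h =>
    (Real.lt_sqrt hδ.le).1 (h.trans_lt (half_lt_self (by positivity)))
  have h1 := q r0 (h.trans ((min_le_right _ _).trans (min_le_left _ _)))
  have h2 := q c0 (h.trans ((min_le_right _ _).trans (min_le_right _ _)))
  have k1 : ∀ β' (H' : Bs X.D β') h0, CylOK (δ := δ) (O' := spO f univ) H'.adm h0 k (eZ X.N X.D) :=
    fun β' H' h0 => eZ_nil (D := X.D) hN ▸ cylOK H' (spO_cases f) h0 S hc hδ h1 h2 hk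
  have h0 := fun (x : X.Y.M × ℝ) (_ : x ∉ spO f univ) => H.zr x.1
  refine ⟨fun β' a O' h0 e E => ?_, hz δ ⟨hδ, (h.trans (min_le_left _ _)).trans_lt
    (half_lt_self p1)⟩ X.Y X.D (fun _ => X.N) f β H.adm h0 _ _ hX.ok hX.con (k1 β H h0).aff
    (fun _ => ⟨k1 β H h0, fun _ _ _ => ⟨rfl, rfl⟩⟩)
    (eZ_nil (D := X.D) hN ▸ inv H (spO_cases f) h0 S hc hδ h1 h2 hk)⟩
  subst e
  exact k1 β' (bs_eqv H a (fun y => by cases f <;> simp [H.zr]) E) h0

end Crest.Agent.X212.Inv14
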