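import Crest.Agent.X212.Crt72.Dc2

/-! Row 212, P-INV (helper14): the index of `∂_t + L - ψ'(t) j` from the kernel of `L`. -/

set_option autoImplicit false
set_option linter.unusedSectionVars false
noncomputable section
open scoped Manifold ContDiff Topology InnerProductSpace BoundedContinuousFunction
open MeasureTheory Set Function Filter Module

namespace Crest.Agent.X212.Inv14
open An An.Pre Sob92 Ell97 Cyf70 Nk89 Rf65

section abs
variable {X₁ X₀ Z : Type*} [NormedAddCommGroup X₁] [NormedSpace ℝ X₁] [CompleteSpace X₁]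
  [NormedAddCommGroup X₀] [InnerProductSpace ℝ X₀] [CompleteSpace X₀] [NormedAddCommGroup Z]
  [NormedSpace ℝ Z] [CompleteSpace Z]
  {i L : X₁ →L[ℝ] X₀} {J : Z →L[ℝ] Lam X₁} {T : Z →L[ℝ] Lam X₀}

theorem fr_abs (h : CylD 1 i L J T) (hi : IsCompactOperator i) (hL : Fred93.Fr L 0)
    {j : X₀ →L[ℝ] X₀} (hj : j ∈ SymA X₀) {N₁ N₂ : Submodule ℝ X₁} (hN : N₁ ⊔ N₂ = L.ker)
    (h1 : ∀ v ∈ N₁, j (i v) = i v) (h2 : ∀ v ∈ N₂, j (i v) = -i v) {δ : ℝ} (hδ : 0 < δ)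
    (inj : ∀ ε, ε ≠ 0 → |ε| ≤ δ → ∀ u, L u + ε • j (i u) = 0 → u = 0) {e : ℝ →ᵇ ℝ}
    (l1 : ∀ t ≤ -2, e t = -δ) (l2 : ∀ t, 2 ≤ t → e t = δ) :
    Fred93.Fr (Dz i L J T (0 - ma e j)) ((finrank ℝ N₂ : ℤ) - finrank ℝ N₁) := by
  obtain ⟨σ, σ', hσ⟩ := exists_stp
  have H := h.isSF hi hL hσ
  have m := fun ε : ℝ => (SymA X₀).smul_mem ε hj
  have b : ∀ ε, ε ≠ 0 → |ε| ≤ δ → Bijective (Crt72.Op i L (ε • j)) := fun ε h0 h1 =>
    H.bij_of_inj (inj ε h0 h1)
  have p : ∀ v, v ≠ 0 → 0 < ⟪i v, i v⟫_ℝ := fun v hv =>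
    real_inner_self_pos.2 fun e => hv (h.inj (e.trans (map_zero i).symm))
  obtain ⟨ε, ⟨-, -, e3⟩, ε0, ε1⟩ := ((sf_cross H (SymA X₀).zero_mem hj (N₁ := N₁) (N₂ := N₂)
    (by simpa [Crt72.Op] using hN) (fun u hu v hv => by
      have := hj (i u) (i v)
      rw [h1 u hu, h2 v hv, inner_neg_right] at this; linarith)
    (fun v hv h0 => by rw [h1 v hv]; exact p v h0) fun v hv h0 => by
      rw [h2 v hv, inner_neg_left]; linarith [p v h0]).and (Ioo_mem_nhdsGT hδ)).exists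
  have hm : ∀ s : ℝ, s = 1 ∨ s = -1 → sf i L J T σ ((s * δ) • j) ((s * ε) • j) = 0 := fun s hs =>
    H.hom _ (m _) _ (m _) fun t ht => by
      rw [← sub_smul, smul_smul, ← add_smul]
      have a1 : 0 < δ + t * (ε - δ) := by nlinarith [ht.1, ht.2]
      have a2 : δ + t * (ε - δ) ≤ δ := by nlinarith [ht.1]
      rw [show s * δ + t * (s * ε - s * δ) = s * (δ + t * (ε - δ)) by ring]
      rcases hs with rfl | rfl
      · exact b _ (by linarith) (by rwa [one_mul, abs_of_pos a1])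
      · exact b _ (by linarith) (by rwa [neg_one_mul, abs_neg, abs_of_pos a1])
  have b1 := b δ hδ.ne' (abs_of_pos hδ).le
  have b2 := b (-δ) (by linarith) (by rw [abs_neg, abs_of_pos hδ])
  have b3 := b ε ε0.ne' ((abs_of_pos ε0).le.trans ε1.le)
  have b4 := b (-ε) (by linarith) (by rw [abs_neg, abs_of_pos ε0]; exact ε1.le)
  have f1 := hm 1 (.inl rfl)
  have f2 := hm (-1) (.inr rfl)
  simp only [one_mul, neg_one_mul] at f1 f2
  rw [zero_add, zero_sub, ← neg_smul] at e3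
  have f3 := H.add _ (m _) _ (m _) _ (m _) b1 b3 b4
  have f4 := H.add _ (m _) _ (m _) _ (m _) b1 b2 b4
  have key : ∀ {c : ℝ → ℝ} {x : ℝ}, Neck67.Sm c → (∀ t, c t ≠ 0 → e t = -x) →
      (muL X₀).m c * (0 - ma e j) = (muL X₀).m c * cp (x • j) := fun {c x} hc H =>
    ContinuousLinearMap.ext fun f => show mt X₀ (bc c) (0 - ma e j f) = mt X₀ (bc c) (cp (x • j) f)
      from R.ext' (by rr) (by rr) fun t => by
        by_cases h0 : c t = 0
        · simp [bc_apply hc, h0]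
        · simp [H t h0]
  refine (h.fr_ends hσ (h.cls_cp (m δ) b1) (h.cls_cp (m (-δ)) b2)
    (by simpa using (h.sep_ma e j).smul (-1)) (p := 2) (fun c c' hc _ e1 _ => ?_)
    fun c c' hc _ e1 _ => ?_).cast (by omega)
  · rw [key hc fun t ht => l1 t (le_of_not_ge fun h0 => ht (e1 t h0))]
  · rw [key hc fun t ht => (l2 t (le_of_not_ge fun h0 => ht (e1 t h0))).trans (neg_neg δ).symm]

end abs

variable {E : Type} [NormedAddCommGroup E] [NormedSpace ℝ E] [FiniteDimensional ℝ E]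
  [MeasurableSpace E] [BorelSpace E]
  {HM : Type} [TopologicalSpace HM] {I : ModelWithCorners ℝ E HM} [I.Boundaryless]
  {Y : Type} [TopologicalSpace Y] [ChartedSpace HM Y] [IsManifold I ∞ Y] [T2Space Y]
  [MeasurableSpace Y] [BorelSpace Y] [SecondCountableTopology Y] [CompactSpace Y]
  {ι : Type} [Fintype ι]
  {V W : Type} [NormedAddCommGroup V] [InnerProductSpace ℝ V] [NormedAddCommGroup W]
  [InnerProductSpace ℝ W] [FiniteDimensional ℝ V] [FiniteDimensional ℝ W]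
  {F : Fr I Y ι} {A : An.Op Y (Option ι) V W}

/-- **the value of the index** -/
theorem fr_val (h : CyO F A) {j : Y → V →L[ℝ] V} (hj : Sm I j) (mj : Maps A.p A.p j)
    (sj : ∀ y v w, ⟪j y v, w⟫_ℝ = ⟪v, j y w⟫_ℝ) {S₁ S₂ : Submodule ℝ (Sec I A.p)}
    (hS : S₁ ⊔ S₂ = kerS F (sop A)) (h1 : ∀ u ∈ S₁, ∀ y, j y (u.1 y) = u.1 y)
    (h2 : ∀ u ∈ S₂, ∀ y, j y (u.1 y) = -u.1 y) {δ : ℝ} (hδ : 0 < δ)
    (inj : ∀ ε, ε ≠ 0 → |ε| ≤ δ → ∀ u : Sec I A.p,
      (∀ y, (sop A).app F u.1 y + ε • j y (u.1 y) = 0) → u = 0) :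
    Fred93.Fr (Dz (F.incl 1 0 A.p) (LH F A 0) (Ψ F.toPre 1 A.p) (TH F A.p)
      (0 - ma (bc (deriv fun t => δ * ab t)) (F.mulH 0 _ _ j)))
      ((finrank ℝ S₂ : ℤ) - finrank ℝ S₁) := by
  obtain ⟨C, g⟩ := h.good_sop
  obtain ⟨C', t⟩ := h.tameY
  have r := fun k => rep_mulH (F := F.toPre) (k := k) (Cb_of_compact hj) mj
  have q := fun S : Submodule ℝ (Sec I A.p) =>
    (Submodule.equivMapOfInjective (F.toH 1 A.p) (toH_inj F 1 _) S).finrank_eq
  rw [q, q]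
  refine fr_abs h.cylD (Cht98.rellich zero_lt_one) (h.frL 0) (fun x y => ?_) ?_ ?_ ?_ hδ
    (fun ε h0 hε x hx => ?_) (fun t ht => (bc_apply (Crt72.sm_dab δ) t).trans (Crt72.ab_lo δ ht).2)
    fun t ht => (bc_apply (Crt72.sm_dab δ) t).trans (Crt72.ab_hi δ ht).2
  · induction x, y using H_ind₂ with
    | hP => exact isClosed_eq (by fun_prop) (by fun_prop)
    | h u v =>
      rw [RepT_toH (r 0), RepT_toH (r 0), inner_toH, inner_toH]
      exact integral_congr_ae (ae_of_all _ fun x => sj _ _ _)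
  · rw [← Submodule.map_sup, hS]
    refine le_antisymm (fun _ ⟨u, hu, e⟩ => e ▸ (kerSEquiv t g h.cliffL 0 ⟨u, hu⟩).2) fun x hx => ?_
    obtain ⟨u, e⟩ := (kerSEquiv t g h.cliffL 0).surjective ⟨x, hx⟩
    exact ⟨u, u.2, congrArg Subtype.val e⟩
  · rintro _ ⟨u, hu, rfl⟩
    rw [incl_toH zero_le_one]
    exact RepT_toH' (r 0) u u (funext (h1 u hu))
  · rintro _ ⟨u, hu, rfl⟩
    rw [incl_toH zero_le_one, ← map_neg]
    exact RepT_toH' (r 0) u (-u) (funext (h2 u hu))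
  · have e : ∀ k, ∃ y : F.H (k + 1) A.p, F.incl (k + 1) 1 _ y = x := fun k => by
      induction k with
      | zero => exact ⟨x, incl_self x⟩
      | succ k ih =>
        obtain ⟨y, rfl⟩ := ih
        rw [incl_incl (by omega) zero_le_one, ← Rep_incl (r _) (r 0) (Nat.zero_le _) (Nat.zero_le _),
          ← map_smul, add_eq_zero_iff_eq_neg, ← map_neg] at hx
        obtain ⟨z, h3, -⟩ := reg_up t g h.cliffL (Nat.zero_le (k + 1)) hx
        exact ⟨z, h3⟩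
    obtain ⟨u, rfl⟩ := sec_of_all t fun k hk => by
      obtain ⟨k, rfl⟩ := Nat.exists_eq_add_of_le' hk
      exact e k
    rw [LH, H_toH g, incl_toH zero_le_one, RepT_toH (r 0), ← map_smul, ← map_add,
      ← map_zero (F.toH 0 A.p)] at hx
    rw [inj ε h0 hε u (congrFun (congrArg Subtype.val (toH_inj F 0 _ hx))), map_zero]

end Crest.Agent.X212.Inv14
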