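import Crest.Agent.X212.Inv14.Ker
import Crest.Agent.X212.Inv14.Abs
import Crest.Agent.X212.Rf65.Ec

/-! Row 212, P-INV (helper14): the index of the weighted cylinder at a flat reducible point. -/

set_option autoImplicit false
set_option linter.unusedSectionVars false
set_option maxHeartbeats 400000
noncomputable section
open scoped Manifold ContDiff Topology InnerProductSpace
open MeasureTheory Finset Filter

namespace Crest.Agent.X212.Inv14
open An An.Pre Sob92 Wz78 Cyf70 Map77 Op78 Rf65 Nd18 Rdc90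
open Ell97 (kerS)

variable {E : Type} [NormedAddCommGroup E] [NormedSpace ℝ E] [FiniteDimensional ℝ E]
  [MeasurableSpace E] [BorelSpace E]
  {HM : Type} [TopologicalSpace HM] {I : ModelWithCorners ℝ E HM} [I.Boundaryless]
  {Y : Type} [TopologicalSpace Y] [ChartedSpace HM Y] [IsManifold I ∞ Y] [T2Space Y]
  [MeasurableSpace Y] [BorelSpace Y] [SecondCountableTopology Y] [CompactSpace Y]
  {κ η lam : Type} [Fintype κ] [DecidableEq κ] [Fintype η] [DecidableEq η] [Fintype lam]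

omit [CompactSpace Y] in
theorem wK_ge {ι : Type} [Fintype ι] {m : Md Y ι lam} {B : Base Y ι lam} {G : Geo I Y ι lam}
    {W : m.Cn} (hB : B.OK I) (hG : G.OK B) (H : m.OK I B) (C : m.IsConn B G W) {x : Y} {v : m.V}
    (h : m.pp B x v = v) (hf : m.Fg G.F W x = 0) {c : ℝ}
    (hc : √(∑ s, fP B G x s ^ 2) - sc G x / 4 ≤ -c) :
    c * ‖v‖ ^ 2 ≤ ⟪v, wK I G.F.e G.F.c m.ρ W x v⟫_ℝ := by
  have e1 := inner_wK hB hG H C h v
  have e3 := neg_le_of_abs_le (abs_rp_le hB H (x := x) (fP B G x) (m.J v) v)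
  have e4 : ‖m.J v‖ = ‖v‖ := by
    rw [← sq_eq_sq₀ (norm_nonneg _) (norm_nonneg _), ← real_inner_self_eq_norm_sq, H.Jsk,
      ← mul_apply_eq_comp, H.Jsq]
    simp
  rw [hf, inner_zero_left, real_inner_self_eq_norm_sq, real_inner_comm] at e1
  rw [e4] at e3
  nlinarith [mul_le_mul_of_nonneg_right hc (sq_nonneg ‖v‖)]

theorem cov_slc {F : Fr I Y κ} {V : Type} [NormedAddCommGroup V] [InnerProductSpace ℝ V]
    {C : Option κ → Y × ℝ → V →L[ℝ] V} {θ : Option κ → Y → V} (hθ : ∀ b, Sm I (θ b)) (a b : κ)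
    (y : Y) : cov (IC I) (cyl F).e (cyl F).Gam C (fun b x => θ b x.1) (some a) (some b) (y, 0) =
      cov I F.e F.Gam (sC C) (fun b => θ (some b)) a b y := by
  simp only [cov, nab_slc (sm_fst (hθ _)), Fintype.sum_option, gam_cyl, zero_smul, zero_add]

variable {D : YD I Y κ lam} {β : YC Y κ lam} {O' : Set (Y × ℝ)} {ν : η → κ → Y → ℝ} {r c : ℝ}

variable (D β O') in
/-- the bundles with the spinor over `O'` -/
abbrev bo : Bd (Y × ℝ) (Option κ) (Fin β.m.N) := ind (bz D β) Set.univ O'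

theorem g_bo (y : Y) (t : ℝ) {ξ : β.m.A} : (bo D β O').g (y, t) ξ = ξ ↔ ξ ∈ β.m.gS y := by
  rw [show (bo D β O').g (y, t) = β.m.pg y from Set.indicator_of_mem (Set.mem_univ _) _]
  exact ⟨fun h => h ▸ pg_mem y ξ, pg_of_mem⟩

theorem fz (H : Bs D β) (hO : IsClopen O') (S : Psc D.F ν r) (hc : PS D c)
    (cy : CyO D.F (sl0 (sful (bo D β O') D.Z (cA β.W) fun x => β.Φ x.1))) :
    FZ D.F (bo D β O') β.W β.Φ ν r c := by
  have A := H.adm.adm
  refine ⟨(cp_bz H.ok H.adm).ind isClopen_univ hO, riem_of_vol H.ok.G.vol, S, H.adm.tmp, H.zr, cy,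
    fun a b x ξ h => ?_, fun x v h => ?_⟩
  · refine (adc_curv_g H.ok.B H.ok.G A.ok A.conn a b (pg_of_mem ((g_bo x.1 x.2).1 h))).trans ?_
    rw [show (Nd18.cy β).m.Fg D.G.F (Nd18.cy β).W x = 0 from H.flat x]
    simp [adc_apply]
    rfl
  by_cases hx : x ∈ O'
  swap
  · rw [← h, show (bo D β O').sp x = 0 from Set.indicator_of_notMem hx _]; simp
  rw [show (bo D β O').sp x = _ from Set.indicator_of_mem hx _] at h
  exact wK_ge H.ok.B H.ok.G A.ok A.conn h (H.flat x) (hc x)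

theorem cov_har (H : Bs D β) (S : Psc D.F ν r) {θ : κ → Y → β.m.A} (hh : Har D β θ) (a b : κ)
    (y : Y) : cov I D.F.e D.F.Gam (A0 β) θ a b y = 0 := by
  obtain ⟨f, hf, e⟩ := Rd78.en_eq (Rd78.riem_Y H.ok) (Rd78.con_A0 H.adm) (Rd78.skew_A0 H.adm) hh.sm
    hh.P hh.ed hh.dv fun a b x => Rd78.curv_A0 H.ok H.adm H.flat a b x (hh.mem b x)
  have e1 := (e y).trans (zero_of D.F (sm_dvg (F := D.F) hf).continuous.fun_neg
    (fun x => e x ▸ S.en_nonneg (fun b => hh.sm b x) (hh.P · x)) (by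
      rw [integral_neg, integral_dvg hf fun _ => .of_compactSpace _, neg_zero]) y)
  rw [en, S.ric_form (hh.P · y)] at e1
  have := S.pos
  have e2 := (add_eq_zero_iff_of_nonneg (by positivity) (by positivity)).1 e1
  simpa using (sum_eq_zero_iff_of_nonneg fun _ _ => by positivity).1
    ((sum_eq_zero_iff_of_nonneg fun _ _ => by positivity).1 e2.1 a (mem_univ _)) b (mem_univ _)

theorem hv_none {K : Type} [Fintype K] [DecidableEq K] (y : Y) (ξ : HS K) :
    hv ν none y ξ = i1 _ _ (ij _ none ξ) :=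
  ext2 (fm_ext fun b => by cases b <;> simp [fa_hv, cν]) rfl

namespace FZ
variable {F : Fr I Y κ} {K : Type} [Fintype K] [DecidableEq K] {d : Bd (Y × ℝ) (Option κ) K}
  {W : Option κ → Y → En K} {Φ : Y → Eu K} (h : FZ F d W Φ ν r c)

/-- the tangential part -/
def π₁ : h.S →ₗ[ℝ] κ → Y → HS K :=
  ⟨⟨fun w k y => fa (w.1 y) (some k), fun _ _ => rfl⟩, fun _ _ => rfl⟩

/-- the normal part -/
def π₂ : h.S →ₗ[ℝ] Y → HS K := ⟨⟨fun w y => fa (w.1 y) none, fun _ _ => rfl⟩, fun _ _ => rfl⟩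

/-- the kernel -/
def N : Submodule ℝ h.S := kerS F (LY F d W Φ)

theorem sf (w : h.S) (b : Option κ) : Sm I fun y => fa (w.1 y) b := fun y =>
  SA.clm (pj _ b ∘L fa) (w.2.1 y)

variable {w : h.S}

theorem p (hc : 0 < c) (hw : w ∈ h.N) (y : Y) :
    fp (w.1 y) = 0 ∧ ∀ a, nab I F.e (cY F W) a w.1 y = 0 := h.par hc w (congrFun hw) y

theorem n0 (hc : 0 < c) (hw : w ∈ h.N) (a : κ) (y : Y) :
    nab I F.e (aY W) a (fun z => ct ν none z (w.1 z)) y = 0 := by
  rw [← h.ct_N w.2.1 (w.2.2.2 y), (h.p hc hw y).2, ct_none]; rfl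

theorem k0 (hw : ∀ a y, nab I F.e (cY F W) a w.1 y = 0) : w ∈ h.N :=
  _root_.funext fun y => (h.app (w.2.2.2 y)).trans (sum_eq_zero fun a _ => by rw [hw, map_zero])

theorem z0 (hc : 0 < c) (hw : w ∈ h.N) (a1 : h.π₁ w = 0) (a2 : h.π₂ w = 0) : w = 0 :=
  Subtype.ext (_root_.funext fun y => ext2 (fm_ext fun b => by
    cases b
    exacts [congrFun a2 y, congrFun (congrFun a1 _) y]) (h.p hc hw y).1)

theorem sup (hc : 0 < c) : h.N ⊓ h.π₂.ker ⊔ h.N ⊓ h.π₁.ker = h.N := by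
  refine le_antisymm (sup_le inf_le_left inf_le_left) fun w hw => ?_
  have a1 : h.pw none w ∈ h.N := h.k0 fun a y => (h.N_hv (h.sm_ct w.2.1) (h.ct_mem (w.2.2.2 y))
    a).trans ((congrArg _ (h.n0 hc hw a y)).trans hv_zero)
  exact Submodule.mem_sup.2 ⟨w - h.pw none w, ⟨sub_mem hw a1, _root_.funext fun y =>
    sub_eq_zero.2 ((one_smul ℝ _).trans ct_none).symm⟩, h.pw none w, ⟨a1, _root_.funext fun k =>
      _root_.funext fun y => zero_smul ℝ (ct ν none y (w.1 y))⟩, sub_add_cancel _ _⟩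

theorem val [Subsingleton η] {j : Y → CL (Cf (Option κ) K) (Cf (Option κ) K)}
    (hj : ∀ y u, j y u = u - (2 : ℝ) • i1 _ _ (ij _ none (fa u none))) {δ : ℝ} (hδ : 0 < δ)
    (h1 : δ ^ 2 < r) (h2 : δ ^ 2 < c) {A : Op Y (Option κ) _ _}
    (hA : A = sl0 (sful d (cyl F) (cA W) fun x => Φ x.1)) :
    Fred93.Fr (Dz (F.incl 1 0 A.p) (Cyf70.LH F A 0) (Ψ F.toPre 1 A.p) (TH F A.p)
      (0 - ma (bc (deriv fun t => δ * Nk89.ab t)) (F.mulH 0 _ _ j)))
      ((Module.finrank ℝ ↥(h.N ⊓ h.π₁.ker) : ℤ) - Module.finrank ℝ ↥(h.N ⊓ h.π₂.ker)) := by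
  subst hA
  have hc : 0 < c := (sq_nonneg δ).trans_lt h2
  have e : ∀ y u, j y u = u - (2 : ℝ) • hv ν none y (ct ν none y u) := fun y u => by
    rw [hj, hv_none, ct_none]
  refine fr_val h.cy ?_ (fun y v hv => ?_) (fun y u v => ?_) (h.sup hc) (fun w hw y => ?_)
    (fun w hw y => ?_) hδ fun ε h0 hε w hw => ?_
  · rw [show j = fun _ => 1 - (2 : ℝ) • (i1 _ _ ∘L ij _ none ∘L pj _ none ∘L fa) from
      _root_.funext fun y => ContinuousLinearMap.ext (hj y)]
    exact contMDiff_const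
  · exact e y v ▸ (map_sub _ _ _).trans (congrArg₂ _ hv ((map_smul _ _ _).trans
      (congrArg _ (h.hv_mem (h.ct_mem hv)))))
  · rw [e, e, inner_sub_left, inner_sub_right, real_inner_smul_left, real_inner_smul_right,
      real_inner_comm (hv ν none y _) u, inner_hv, inner_hv, real_inner_comm (ct ν none y u)]
  · rw [hj, show fa (w.1 y) none = 0 from congrFun hw.2 y]; simp
  · rw [hj, show i1 _ _ (ij _ none (fa (w.1 y) none)) = w.1 y from ext2 (fm_ext fun b => by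
      cases b
      exacts [ij_none _, (ij_some _ _).trans (congrFun (congrFun hw.2 _) y).symm])
        (h.p hc hw.1 y).1.symm, two_smul, sub_add_cancel_left]
  · have := sq_le_sq.2 (hε.trans (le_abs_self δ))
    exact h.inj w h0 (this.trans_lt h1) (this.trans_lt h2) fun y => by
      rw [eq_neg_of_add_eq_zero_left (hw y), e, neg_smul]; rfl

end FZ

variable (H : Bs D β) (h : FZ D.F (bo D β O') β.W β.Φ ν r c)
include H h

theorem c1 (w : h.S) (a b : κ) (y : Y) : fa (nab I D.F.e (cY D.F β.W) a w.1 y) (some b) =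
    cov I D.F.e D.F.Gam (A0 β) (h.π₁ w) a b y :=
  (h.fa_N w.2.1 (w.2.2.2 y) a _).trans (cov_slc (h.sf w) a b y)

theorem r1 (hc : 0 < c) : {θ | Har D β θ} = (h.π₁ ∘ₗ (h.N ⊓ h.π₂.ker).subtype).range := by
  refine Set.ext fun θ => ⟨fun hh => ?_, ?_⟩
  · have sv := Rd78.sv_up (φ := 0) hh.toFo ⟨contMDiff_const, fun _ => map_zero _⟩
    let w : h.S := ⟨fun y => i1 _ _ (Rd78.up β θ (y, 0)),
      fun y => SA.clm _ (sm_slice_fst sv.sα 0 y), .of_compactSpace _, fun y => ext2 ((f2_ps (y, 0) _).trans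
        (h.cp.ok.p1_fix _ (fun a => (g_bo y 0).2 (Rd78.mem_sv sv (y, 0) a))
          (Rd78.p1_cy.1 (sv.p1 (y, 0))).2)) ((s2_ps (y, 0) _).trans (map_zero _))⟩
    refine ⟨⟨w, h.k0 fun a y => ext2 (fm_ext fun b => ?_) ?_, rfl⟩, rfl⟩
    · cases b with
      | some b => exact (c1 H h w a b y).trans (cov_har H h.psc hh a b y)
      | none =>
        rw [← ct_none (ν := ν) (y := y), h.ct_N w.2.1 (w.2.2.2 y)]
        simp only [ct_none]
        simp [w, Rd78.up, nab]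
    · rw [← nab_slc (sm_fst w.2.1), s2_nab _ (sm_fst w.2.1 _)]
      simp [w, nab]
  · rintro ⟨⟨w, hw, a2⟩, rfl⟩
    have c2 : ∀ a b y, cov I D.F.e D.F.Gam (A0 β) (h.π₁ w) a b y = 0 := fun a b y => by
      rw [← c1 H h, (h.p hc hw y).2]; rfl
    have P : ∀ k y, ∑ l, D.F.P k l y • h.π₁ w l y = h.π₁ w k y := fun k y => by
      have := h.cp.P_fa (w.2.2.2 y) (some k)
      rwa [Fintype.sum_option, show (cyl D.F).P (some k) none (y, 0) = 0 from rfl, zero_smul,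
        zero_add] at this
    exact ⟨⟨fun k => h.sf w _, fun k y => (g_bo y 0).1 (g_fa h.cp.ok (w.2.2.2 y) _), P⟩,
      fun a b y => (Rd78.ed_cov (P · y) a b).trans (by rw [c2, c2, sub_zero]),
      fun y => (Rd78.dv1_cov (Rd78.riem_Y H.ok) (P · y)).trans (sum_eq_zero fun a _ => c2 a a y)⟩

theorem r2 (hc : 0 < c) : {ξ | ParY D β ξ} = (h.π₂ ∘ₗ (h.N ⊓ h.π₁.ker).subtype).range := by
  refine Set.ext fun ξ => ⟨fun hh => ?_, ?_⟩
  · have m := fun y => (g_bo (D := D) (O' := O') y 0).2 (hh.mem y)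
    exact ⟨⟨h.hs none hh.sm m, h.k0 fun a y => (h.N_hv hh.sm (m y) a).trans
      ((congrArg _ (hh.par a y)).trans hv_zero), _root_.funext fun k => _root_.funext fun y =>
        zero_smul ℝ (ξ y)⟩, _root_.funext fun y => one_smul ℝ (ξ y)⟩
  · rintro ⟨⟨w, hw, a2⟩, rfl⟩
    exact ⟨h.sf w _, fun y => (g_bo y 0).1 (g_fa h.cp.ok (w.2.2.2 y) _), fun a y => by
      have := h.n0 hc hw a y
      simp only [ct_none] at this
      exact this⟩

/-- **the index is `h⁰ - h¹`** -/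
theorem val (hc : 0 < c) :
    (Module.finrank ℝ ↥(h.N ⊓ h.π₁.ker) : ℤ) - Module.finrank ℝ ↥(h.N ⊓ h.π₂.ker) =
      (dz D β : ℤ) - dh D β := by
  rw [dz, dh, r1 H h hc, r2 H h hc, Submodule.span_eq, Submodule.span_eq,
    LinearMap.finrank_range_of_inj ((injective_iff_map_eq_zero _).2 fun ⟨_, w⟩ a =>
      Subtype.ext (h.z0 hc w.1 w.2 a)),
    LinearMap.finrank_range_of_inj ((injective_iff_map_eq_zero _).2 fun ⟨_, w⟩ a =>
      Subtype.ext (h.z0 hc w.1 a w.2))]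

end Crest.Agent.X212.Inv14
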