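import Crest.Agent.X212.Op78.Main
import Crest.Agent.X212.Rd78.Hc

/-! Row 212, P-INV (helper14): the operator on the cross-section at a flat reducible point. -/

set_option autoImplicit false
set_option linter.unusedSectionVars false
set_option maxHeartbeats 400000
noncomputable section
open scoped Manifold ContDiff Topology InnerProductSpace
open MeasureTheory Finset Filter

namespace Crest.Agent.X212.Inv14
open An An.Pre Sob92 Wz78 Cyf70 Map77 Op78 Rf65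

variable {E : Type} [NormedAddCommGroup E] [NormedSpace ℝ E] [FiniteDimensional ℝ E]
  [MeasurableSpace E] [BorelSpace E]
  {HM : Type} [TopologicalSpace HM] {I : ModelWithCorners ℝ E HM} [I.Boundaryless]
  {Y : Type} [TopologicalSpace Y] [ChartedSpace HM Y] [IsManifold I ∞ Y] [T2Space Y]
  [MeasurableSpace Y] [BorelSpace Y] [SecondCountableTopology Y] [CompactSpace Y]
  {κ K η : Type} [Fintype κ] [DecidableEq κ] [Fintype K] [DecidableEq K] [Fintype η] [DecidableEq η]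

theorem intg (F : Fr I Y κ) {f : Y → ℝ} (h : Continuous f) : Integrable f F.μ :=
  h.integrable_of_hasCompactSupport (.of_compactSpace _)

theorem zero_of (F : Fr I Y κ) {f : Y → ℝ} (h : Continuous f) (h0 : ∀ y, 0 ≤ f y)
    (h1 : ∫ y, f y ∂F.μ ≤ 0) (y : Y) : f y = 0 :=
  have := openPos F.toPre
  congrFun ((h.ae_eq_iff_eq F.μ continuous_zero).1 ((integral_eq_zero_iff_of_nonneg h0
    (intg F h)).1 (le_antisymm h1 (integral_nonneg h0)))) y

/-- `ν i ⊗ ξ` -/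
def hv (ν : η → κ → Y → ℝ) (i : Option η) (y : Y) (ξ : HS K) : Cf (Option κ) K :=
  i1 _ _ (WithLp.toLp 2 fun b => cν ν i b (y, 0) • ξ)

/-- the component along `ν i` -/
def ct (ν : η → κ → Y → ℝ) (i : Option η) (y : Y) (v : Cf (Option κ) K) : HS K :=
  ∑ b, cν ν i b (y, 0) • fa v b

/-- the connection on the cross-section -/
abbrev cY (F : Fr I Y κ) (W : Option κ → Y → En K) : κ → Y → CL (Cf (Option κ) K) (Cf (Option κ) K) :=
  sC (cC (cyl F) (cyl F).Gam (cA W))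

/-- a flat reducible point over a cross-section of positive scalar curvature -/
structure FZ (F : Fr I Y κ) (d : Bd (Y × ℝ) (Option κ) K) (W : Option κ → Y → En K) (Φ : Y → Eu K)
    (ν : η → κ → Y → ℝ) (r c : ℝ) : Prop where
  cp : Cp d (cyl F) (cyl F).Gam (cA W)
  rm : Riem (cyl F)
  psc : Psc F ν r
  tmp : ∀ y, W none y = 0
  zr : ∀ y, Φ y = 0
  cy : CyO F (sl0 (sful d (cyl F) (cA W) fun x => Φ x.1))
  flat : ∀ a b x ξ, d.g x ξ = ξ → adc (curv (IC I) (cyl F).e (cyl F).c (cA W) a b x) ξ = 0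
  spin : ∀ x v, d.sp x v = v → c * ‖v‖ ^ 2 ≤ ⟪v, wK (IC I) (cyl F).e (cyl F).c d.ρ (cA W) x v⟫_ℝ

variable {F : Fr I Y κ} {d : Bd (Y × ℝ) (Option κ) K} {W : Option κ → Y → En K} {Φ : Y → Eu K}
  {ν : η → κ → Y → ℝ} {r c : ℝ} {i : Option η} {y : Y} {ξ ξ' : HS K} {u v : Cf (Option κ) K}
  {w : Y → Cf (Option κ) K} {f : Y → HS K}

theorem fa_hv (b : Option κ) : fa (hv ν i y ξ) b = cν ν i b (y, 0) • ξ := rfl
theorem fp_hv : fp (hv ν i y ξ) = 0 := rfl

theorem inner_hv : ⟪hv ν i y ξ, v⟫_ℝ = ⟪ξ, ct ν i y v⟫_ℝ := by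
  simp only [inner2 (hv ν i y ξ), fp_hv, inner_zero_left, add_zero, inner_fm (X := HS K), fa_hv,
    ct, inner_sum, real_inner_smul_left, real_inner_smul_right]

theorem hv_zero : hv ν i y (0 : HS K) = 0 := ext2 (fm_ext fun _ => smul_zero _) rfl

theorem cν_inv (b : Option κ) (x : Y × ℝ) : cν ν i b (x.1, 0) = cν ν i b x := by
  cases i <;> cases b <;> rfl

theorem ct_none : ct ν none y v = fa v none := by simp [ct, cν, Fintype.sum_option]

theorem cC_inv (b : Option κ) (x : Y × ℝ) :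
    cC (cyl F) (cyl F).Gam (cA W) b x = cC (cyl F) (cyl F).Gam (cA W) b (x.1, 0) := by
  have e1 : Idg99.Pm (cyl F).P x = Idg99.Pm (cyl F).P (x.1, 0) :=
    Matrix.ext fun a b => (congrFun (iv_P a b).eq x).symm
  have e2 : Idg99.Gm (cyl F).Gam b x = Idg99.Gm (cyl F).Gam b (x.1, 0) :=
    Matrix.ext fun c k => (gam_cyl b c k x).trans (gam_cyl b c k (x.1, 0)).symm
  simp only [ds, Idg99.tA, Idg99.Om, e1, e2]

namespace FZ
variable (h : FZ F d W Φ ν r c)
include h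

theorem ct_hv (j : Option η) : ct ν j y (hv ν i y ξ) = if j = i then ξ else 0 := by
  simp only [ct, fa_hv, smul_smul, ← sum_smul, h.psc.cyl.ort, ite_smul, one_smul, zero_smul]

theorem sm_ν (b : Option κ) : Sm I fun y => cν ν i b (y, 0) := sm_slice_fst (h.psc.cyl.sm i b) 0

theorem sm_hv (hf : Sm I f) : Sm I fun y => hv ν i y (f y) := fun y =>
  SA.clm (i1 _ (Eu K)) (SA.toLp (f := fun b y => cν ν i b (y, 0) • f y) fun b =>
    (h.sm_ν b y).smul (hf y))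

theorem sm_ct (hw : Sm I w) : Sm I fun y => ct ν i y (w y) := fun y =>
  SA.sum _ fun b _ => SA.smul (h.sm_ν b y) (SA.clm (pj _ b ∘L fa) (hw y))

theorem hv_mem (hξ : d.g (y, 0) ξ = ξ) : d.pC (y, 0) (hv ν i y ξ) = hv ν i y ξ := by
  refine ext2 ?_ (by rw [s2_ps, fp_hv, map_zero])
  rw [f2_ps]
  refine h.cp.ok.p1_fix _ (fun a => ?_) fun a => ?_
  · rw [fa_hv, map_smul, hξ]
  · simp only [fa_hv, smul_smul, ← sum_smul, ← h.cp.P, h.psc.cyl.P]

theorem ct_mem (hv : d.pC (y, 0) v = v) : d.g (y, 0) (ct ν i y v) = ct ν i y v := by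
  simp only [ct, map_sum, map_smul, g_fa h.cp.ok hv]

theorem c0 (x : Y × ℝ) : cC (cyl F) (cyl F).Gam (cA W) none x = 0 :=
  cC_zero (fun b k => gam_cyl none b k x) (h.tmp _)

theorem rp : Rp F F.Gam (LY F d W Φ) (cY F W) (cY F W) fun _ => 0 :=
  (rp_sop (rp_sful h.cp h.rm) h.cp.skew_cC h.cp.skew_cT h.c0).congr (fun x v _ => by
    have : Op.tr (0 : CL (HS K) (Cf (Option κ) K)) = 0 := by rw [← Ell97.trL_apply, map_zero]
    simp [zs, z0, zl, h.zr, this, pr2]) fun y => h.cp.ok.prjC.idem (y, 0)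

theorem con : Con I F.P (cY F W) :=
  ⟨fun a => sm_slice_fst (h.cp.con_cC.sm (some a)) 0, fun a y => by
    have := h.cp.con_cC.proj (some a) (y, 0)
    rwa [Fintype.sum_option, h.c0, smul_zero, zero_add] at this⟩

theorem sm_aY (a : κ) : Sm I (aY W a) := sm_slice_fst (h.cp.con_adw.sm (some a)) 0

theorem app (hw : d.pC (y, 0) (w y) = w y) : (LY F d W Φ).app F w y =
    ∑ a, (LY F d W Φ).σ a y (nab I F.e (cY F W) a w y) := (h.rp.app hw).trans (add_zero _)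

theorem fa_N (hw : Sm I w) (pw : d.pC (y, 0) (w y) = w y) (a : κ) (b : Option κ) :
    fa (nab I F.e (cY F W) a w y) b = cov (IC I) (cyl F).e (cyl F).Gam (adw (cA W))
      (fun b x => fa (w x.1) b) (some a) b (y, 0) :=
  (congrArg (fa · b) (nab_slc (sm_fst hw) a y).symm).trans (h.cp.fa_nab (sm_fst hw _) pw _ b)

theorem ct_N (hw : Sm I w) (pw : d.pC (y, 0) (w y) = w y) (a : κ) :
    ct ν i y (nab I F.e (cY F W) a w y) = nab I F.e (aY W) a (fun z => ct ν i z (w z)) y := by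
  have s : ∀ b, Sm (IC I) fun x : Y × ℝ => fa (w x.1) b := fun b x =>
    SA.clm (pj _ b ∘L fa) (sm_fst hw x)
  simp only [ct, h.fa_N hw pw]
  exact (h.psc.cyl.nab_ctr (fun b => s b _) (h.cp.P_fa pw) i (some a)).symm.trans
    (nab_slc (h.psc.cyl.sm_ctr s i) a y)

theorem N_hv (hf : Sm I f) (hg : d.g (y, 0) (f y) = f y) (a : κ) :
    nab I F.e (cY F W) a (fun z => hv ν i z (f z)) y = hv ν i y (nab I F.e (aY W) a f y) := by
  refine ext2 (fm_ext fun b => ?_) ?_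
  · rw [h.fa_N (h.sm_hv hf) (h.hv_mem hg), ← nab_slc (F := F) (C := adw (cA W)) (sm_fst hf)]
    simp only [fa_hv, cν_inv]
    rw [cov, nab_smul _ (h.psc.cyl.sm i b _) (sm_fst hf _), ← Pre.D_def, h.psc.cyl.par]
    simp only [sum_smul, mul_smul]
    abel
  · rw [← nab_slc (sm_fst (h.sm_hv hf)), s2_nab _ (sm_fst (h.sm_hv hf) _)]
    simp [fp_hv, nab]

theorem g_N (hf : Sm I f) (hg : ∀ y, d.g (y, 0) (f y) = f y) (a : κ) :
    d.g (y, 0) (nab I F.e (aY W) a f y) = nab I F.e (aY W) a f y :=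
  Cp.par_nab (F := F) (p := fun y => d.g (y, 0)) (sm_slice_fst h.cp.sg 0 y)
    ((congrArg (· + _) (D_some F.toPre h.cp.sg a (y, 0))).symm.trans (h.cp.g (some a) (y, 0)))
    (hf y) hg

theorem orth (h1 : d.g (y, 0) ξ = ξ) (h2 : d.g (y, 0) ξ' = ξ') (a : κ) :
    ⟪(LY F d W Φ).σ a y (hv ν i y ξ), hv ν i y ξ'⟫_ℝ = 0 := by
  have v := h.cp.ok.vol (y, 0)
  have o : ∑ b, (∑ e, d.o (some a) b none e (y, 0) * cν ν i e (y, 0)) * cν ν i b (y, 0) = 0 := by
    simp only [sum_mul]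
    refine self_eq_neg.1 ((sum_comm ..).trans ?_)
    simp only [← sum_neg_distrib]
    refine sum_congr rfl fun b _ => sum_congr rfl fun e _ => ?_
    have := v.a2 (some a) b none e
    have := v.a3 (some a) none b e
    have := v.a2 (some a) e none b
    rw [show d.o (some a) e none b (y, 0) = -d.o (some a) b none e (y, 0) by linarith]; ring
  change ⟪nu _ y ((d.full (cyl F) (base (cA W) 0)).σ (some a) (y, 0) _), _⟫_ℝ = 0
  rw [inner_nu]
  change ⟪_, (d.full (cyl F) (base (cA W) 0)).σ none (y, 0) _⟫_ℝ = 0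
  rw [inner2, inner2 (s2 _ _ _), h.cp.ok.full_σ1, h.cp.ok.full_σ1, h.cp.ok.full_σ2,
    Bd.OK.full_σ3, Bd.OK.full_σ3, h.cp.ok.inner_wd, p1_of (h.hv_mem h1), p1_of (h.hv_mem h2)]
  simp only [fa_hv, fp_hv, map_zero, inner_zero_left, real_inner_smul_left, real_inner_smul_right,
    ← h.cp.P, show (cyl F).P (some a) none (y, 0) = 0 from rfl, ← mul_assoc, ← sum_mul, o]
  ring

theorem kF_eq (pv : d.pC (y, 0) v = v) : kF d (cyl F) (cyl F).Gam (cA W) (y, 0) u v =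
    r * (⟪fa u, fa v⟫_ℝ - ∑ i, ⟪ct ν i y u, ct ν i y v⟫_ℝ) +
      ⟪fp u, wK (IC I) (cyl F).e (cyl F).c d.ρ (cA W) (y, 0) (fp v)⟫_ℝ := by
  have h1 : ∀ b, ∑ l, (cyl F).P b l (y, 0) * ⟪fa u b, fa v l⟫_ℝ = ⟪fa u b, fa v b⟫_ℝ := fun b => by
    simp only [← real_inner_smul_right, ← inner_sum, h.cp.P_fa pv]
  have h2 : ∑ b, ∑ l, (∑ i, cν ν i b (y, 0) * cν ν i l (y, 0)) * ⟪fa u b, fa v l⟫_ℝ =
      ∑ i, ⟪ct ν i y u, ct ν i y v⟫_ℝ := by
    simp only [ct, sum_inner]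
    simp only [inner_sum, real_inner_smul_left, real_inner_smul_right, sum_mul]
    rw [sum_comm (γ := Option η)]
    refine sum_congr rfl fun b _ => ?_
    rw [sum_comm (γ := Option η)]
    exact sum_congr rfl fun l _ => sum_congr rfl fun i _ => by ring
  simp only [kF, h.flat _ _ _ _ (g_fa h.cp.ok pv _), inner_zero_right, mul_zero, sum_const_zero,
    sub_zero, h.psc.cyl.ric, mul_assoc, ← mul_sum, sub_mul, sum_sub_distrib, h1, h2,
    inner_fm (fa u)]

theorem curv_eq (pu : d.pC (y, 0) u = u) (pv : d.pC (y, 0) v = v) :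
    ∑ a, ∑ b, ⟪(LY F d W Φ).σ a y u, (LY F d W Φ).σ b y (curv I F.e F.c (cY F W) a b y v)⟫_ℝ =
      -2 * kF d (cyl F) (cyl F).Gam (cA W) (y, 0) u v := by
  have s := h.cp.con_cC.sm
  have e1 : ∀ b, dv (IC I) ((cyl F).e none) (cC (cyl F) (cyl F).Gam (cA W) b) (y, 0) = 0 :=
    fun b => (congrArg (dv _ _ · _) (_root_.funext (cC_inv b))).trans
      (congrFun (D_none_fst F.toPre (sm_slice_fst (s b) 0)) _)
  have e2 : cC (cyl F) (cyl F).Gam (cA W) none = fun _ => 0 := _root_.funext h.c0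
  have e3 : ∀ b, curv (IC I) (cyl F).e (cyl F).c (cC (cyl F) (cyl F).Gam (cA W)) none b (y, 0) = 0 ∧
      curv (IC I) (cyl F).e (cyl F).c (cC (cyl F) (cyl F).Gam (cA W)) b none (y, 0) = 0 :=
    fun b => by
      simp only [curv, e1, e2, dv_const]
      cases b <;> simp [cyl, cc]
  rw [← h.cp.curv_term pu pv (base (cA W) 0)]
  simp only [Fintype.sum_option, (e3 _).1, (e3 _).2, zero_apply, map_zero, inner_zero_right,
    sum_const_zero, zero_add, Rd78.curv_sl s]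
  refine sum_congr rfl fun a _ => sum_congr rfl fun b _ => (h.cy.inner_nu_nu _ _ _).trans ?_
  exact congrArg (⟪·, _⟫_ℝ) ((h.cp.ok.alg_full _).qσ _ _ _)

/-- sections on the cross-section -/
abbrev S (_ : FZ F d W Φ ν r c) : Type := Sec I (LY F d W Φ).p

/-- `ν i ⊗ f` as a section -/
def hs (i : Option η) (hf : Sm I f) (hg : ∀ y, d.g (y, 0) (f y) = f y) : h.S :=
  ⟨fun y => hv ν i y (f y), h.sm_hv hf, .of_compactSpace _, fun y => h.hv_mem (hg y)⟩

/-- the part along `ν i` -/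
def pw (i : Option η) (w : h.S) : h.S := h.hs i (h.sm_ct (i := i) w.2.1) fun y => h.ct_mem (w.2.2.2 y)

/-- the Bochner density -/
def bq (_ : FZ F d W Φ ν r c) (u w : Y → Cf (Option κ) K) (y : Y) : ℝ :=
  ∑ a, ⟪nab I F.e (cY F W) a u y, nab I F.e (cY F W) a w y⟫_ℝ - 1 / 2 * ∑ a, ∑ b,
    ⟪(LY F d W Φ).σ a y (u y), (LY F d W Φ).σ b y (curv I F.e F.c (cY F W) a b y (w y))⟫_ℝ

theorem boch (u w : h.S) : ∫ y, ⟪(LY F d W Φ).app F u.1 y, (LY F d W Φ).app F w.1 y⟫_ℝ ∂F.μ =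
    ∫ y, h.bq u.1 w.1 y ∂F.μ := by
  have := h.rp.boch (lc_gam F) (riem_slc h.rm) h.con
    (fun a y => h.cp.skew_cC _ _) h.cy.cliffL (sm_slice_fst h.cp.sm_pC 0) (fun a y =>
      (congrArg (· + _) (D_some F.toPre h.cp.sm_pC a (y, 0))).symm.trans
        (h.cp.pC_par (some a) (y, 0))) u.2.1 w.2.1 w.2.2.1 u.2.2.2 w.2.2.2
  exact (integral_congr_ae (.of_forall fun y =>
    congrArg₂ (⟪·, ·⟫_ℝ) (sub_zero _).symm (sub_zero _).symm)).trans this

theorem sm_bq (hw : Sm I w) : Sm I (h.bq w w) := fun y =>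
  (SA.sum _ fun a _ => SA.inner (sm_nab h.con.sm a hw y) (sm_nab h.con.sm a hw y)).sub
    (SA.mul contMDiffAt_const (SA.sum _ fun a _ => SA.sum _ fun b _ => SA.inner
      ((h.rp.sy.sm a y).app (hw y)) ((h.rp.sy.sm b y).app (SA.app (sm_curv (F := F) h.con.sm a b y) (hw y)))))

/-- the energy of a component -/
def gi (_ : FZ F d W Φ ν r c) (i : Option η) (w : Y → Cf (Option κ) K) (y : Y) : ℝ :=
  ∑ a, ‖nab I F.e (aY W) a (fun z => ct ν i z (w z)) y‖ ^ 2

theorem cont_gi (hw : Sm I w) : Continuous (h.gi i w) := continuous_finsetSum _ fun a _ =>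
  (sm_nab h.sm_aY a (h.sm_ct hw)).continuous.norm.pow 2

theorem orth' (w : h.S) (y : Y) : ⟪(h.pw i w).1 y, (LY F d W Φ).app F (h.pw i w).1 y⟫_ℝ = 0 := by
  have m := fun y => h.ct_mem (i := i) (w.2.2.2 y)
  rw [h.app ((h.pw i w).2.2.2 y), real_inner_comm, sum_inner]
  exact sum_eq_zero fun a _ => (congrArg (⟪(LY F d W Φ).σ a y ·, _⟫_ℝ)
    (h.N_hv (h.sm_ct w.2.1) (m y) a)).trans (h.orth (h.g_N (h.sm_ct w.2.1) m a) (m y) a)

theorem key (w : h.S) {ε s : ℝ}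
    (e : ∀ y, (LY F d W Φ).app F w.1 y = -ε • (w.1 y - s • (h.pw i w).1 y)) :
    ∫ y, h.gi i w.1 y ∂F.μ = ε ^ 2 * (1 - s) * ∫ y, ‖ct ν i y (w.1 y)‖ ^ 2 ∂F.μ := by
  have m := fun y => h.ct_mem (i := i) (w.2.2.2 y)
  have e1 : ∀ y, h.bq w.1 (h.pw i w).1 y = h.gi i w.1 y := fun y => by
    rw [bq, h.curv_eq (w.2.2.2 y) ((h.pw i w).2.2.2 y), h.kF_eq ((h.pw i w).2.2.2 y)]
    have := inner_hv (ν := ν) (i := i) (y := y) (ξ := ct ν i y (w.1 y)) (v := w.1 y)
    rw [inner2, fp_hv, inner_zero_left, add_zero, real_inner_comm] at this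
    simp only [pw, hs, h.N_hv (h.sm_ct w.2.1) (m y), real_inner_comm (hv ν i y _), inner_hv,
      h.ct_N w.2.1 (w.2.2.2 y), this, h.ct_hv, fp_hv, real_inner_self_eq_norm_sq, gi]
    simp [apply_ite]
  have e2 : ∀ y, ⟪(LY F d W Φ).app F w.1 y, (h.pw i w).1 y⟫_ℝ =
      -ε * (1 - s) * ‖ct ν i y (w.1 y)‖ ^ 2 := fun y => by
    simp only [e, pw, hs, real_inner_smul_left, inner_sub_left]
    rw [real_inner_comm _ (w.1 y), inner_hv, inner_hv, h.ct_hv, if_pos rfl,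
      real_inner_self_eq_norm_sq]
    ring
  have e3 : ∫ y, _ ∂F.μ = ∫ y, ⟪w.1 y, (LY F d W Φ).app F (h.pw i w).1 y⟫_ℝ ∂F.μ :=
    h.cy.sym w (h.pw i w)
  have e4 := h.boch w (h.pw i w)
  simp only [e2, integral_const_mul] at e3
  simp only [e, e1, real_inner_smul_left, inner_sub_left, h.orth', mul_zero, sub_zero,
    integral_const_mul, ← e3] at e4
  rw [← e4]; ring

theorem main (w : h.S) {ε : ℝ} (h1 : ε ^ 2 < r) (h2 : ε ^ 2 < c)
    (e : ∀ y, (LY F d W Φ).app F w.1 y = -ε • (w.1 y - (2 : ℝ) • (h.pw none w).1 y)) :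
    (∀ y, ε • ct ν none y (w.1 y) = 0) ∧ (∀ y, w.1 y = ∑ i, (h.pw i w).1 y) ∧
      ∀ i, ∫ y, h.gi i w.1 y ∂F.μ = ε ^ 2 * ∫ y, ‖ct ν i y (w.1 y)‖ ^ 2 ∂F.μ := by
  have c1 : ∀ i, Continuous fun y => ε ^ 2 * ‖ct ν i y (w.1 y)‖ ^ 2 := fun i =>
    continuous_const.mul ((h.sm_ct (i := i) w.2.1).continuous.norm.pow 2)
  have a1 : ∀ y, ε • ct ν none y (w.1 y) = 0 := fun y => by
    have k := h.key w e
    have := zero_of F (c1 none) (fun y => by positivity) (by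
        have : 0 ≤ ∫ y, h.gi none w.1 y ∂F.μ := integral_nonneg fun y => by unfold gi; positivity
        rw [integral_const_mul]; linarith) y
    rw [← norm_eq_zero, norm_smul, Real.norm_eq_abs, ← pow_eq_zero_iff two_ne_zero, mul_pow, sq_abs]
    exact this
  have a2 : ∀ y, (LY F d W Φ).app F w.1 y = -ε • w.1 y := fun y => by
    have : ε • (h.pw none w).1 y = 0 := ext2 (fm_ext fun b => by
      simp only [pw, hs, map_smul, PiLp.smul_apply, fa_hv, smul_comm ε, a1]; simp)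
      (by simp [pw, hs, fp_hv])
    rw [e, smul_sub, smul_comm, neg_smul ε ((h.pw none w).1 y), this]; simp
  have a3 : ∀ i, ∫ y, h.gi i w.1 y ∂F.μ = ε ^ 2 * ∫ y, ‖ct ν i y (w.1 y)‖ ^ 2 ∂F.μ := fun i => by
    simpa using h.key (i := i) w (ε := ε) (s := 0) fun y => by simpa using a2 y
  refine ⟨a1, fun y => ?_, a3⟩
  have c2 := (h.sm_bq w.2.1).continuous
  have c3 : Continuous fun y => ε ^ 2 * ‖w.1 y‖ ^ 2 :=
    continuous_const.mul (w.2.1.continuous.norm.pow 2)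
  have c4 := fun i => (h.cont_gi (i := i) w.2.1).fun_sub (c1 i)
  have py := fun y (v : Cf (Option κ) K) =>
    pyth (n := fun i b => cν ν i b (y, 0)) (fun i j => h.psc.cyl.ort i j _) fun b => fa v b
  have lo : ∀ y, (r - ε ^ 2) * ∑ b, ‖fa (w.1 y) b - ∑ i, cν ν i b (y, 0) • ct ν i y (w.1 y)‖ ^ 2 +
      (c - ε ^ 2) * ‖fp (w.1 y)‖ ^ 2 ≤ h.bq w.1 w.1 y - ε ^ 2 * ‖w.1 y‖ ^ 2 -
        ∑ i, (h.gi i w.1 y - ε ^ 2 * ‖ct ν i y (w.1 y)‖ ^ 2) := fun y => by
    have k1 := h.spin _ _ (sp_of (w.2.2.2 y))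
    have k2 : ∑ i, h.gi i w.1 y ≤ ∑ a, ‖nab I F.e (cY F W) a w.1 y‖ ^ 2 := by
      simp only [gi, ← h.ct_N w.2.1 (w.2.2.2 y)]
      refine (sum_comm ..).trans_le (sum_le_sum fun a _ => (bessel (n := fun i b => cν ν i b (y, 0))
        (fun i j => h.psc.cyl.ort i j _) _).trans ?_)
      rw [← PiLp.norm_sq_eq_of_L2, WithLp.prod_norm_sq_eq_of_L2]
      exact le_add_of_nonneg_right (sq_nonneg _)
    have k3 : ‖w.1 y‖ ^ 2 = ‖fa (w.1 y)‖ ^ 2 + ‖fp (w.1 y)‖ ^ 2 := WithLp.prod_norm_sq_eq_of_L2 _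
    rw [bq, h.curv_eq (w.2.2.2 y) (w.2.2.2 y), h.kF_eq (w.2.2.2 y), k3]
    erw [py, ← PiLp.norm_sq_eq_of_L2]
    simp only [real_inner_self_eq_norm_sq, sum_sub_distrib, ← mul_sum, ct] at k1 k2 ⊢
    nlinarith
  have p1 := sub_pos.2 h1
  have p2 := sub_pos.2 h2
  have z := (lo y).trans (zero_of F ((c2.fun_sub c3).fun_sub (continuous_finsetSum _ fun i _ => c4 i))
    (fun y => le_trans (by positivity) (lo y)) (by
      have b := h.boch w w
      simp only [a2, real_inner_self_eq_norm_sq, norm_smul, mul_pow, Real.norm_eq_abs, sq_abs,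
        neg_sq] at b
      rw [integral_sub (intg F (c2.fun_sub c3)) (intg F (continuous_finsetSum _ fun i _ => c4 i)),
        integral_sub (intg F c2) (intg F c3), integral_finsetSum _ fun i _ => intg F (c4 i), b,
        sub_self, sum_eq_zero fun i _ => by
          rw [integral_sub (intg F (h.cont_gi w.2.1)) (intg F (c1 i)), a3,
            integral_const_mul, sub_self]]
      simp) y).le
  have z1 : ∑ b, ‖fa (w.1 y) b - ∑ i, cν ν i b (y, 0) • ct ν i y (w.1 y)‖ ^ 2 = 0 :=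
    le_antisymm (by nlinarith [sq_nonneg ‖fp (w.1 y)‖]) (by positivity)
  have z2 : ‖fp (w.1 y)‖ ^ 2 = 0 := le_antisymm (by nlinarith) (by positivity)
  rw [sum_eq_zero_iff_of_nonneg fun _ _ => by positivity] at z1
  refine ext2 (fm_ext fun b => ?_) (by simpa [pw, hs, fp_hv] using z2)
  simpa [pw, hs, fa_hv, sub_eq_zero] using z1 b (mem_univ _)

/-- **uniform injectivity** -/
theorem inj [Subsingleton η] (w : h.S) {ε : ℝ} (h0 : ε ≠ 0) (h1 : ε ^ 2 < r) (h2 : ε ^ 2 < c)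
    (e : ∀ y, (LY F d W Φ).app F w.1 y = -ε • (w.1 y - (2 : ℝ) • (h.pw none w).1 y)) : w = 0 := by
  obtain ⟨a1, a2, -⟩ := h.main w h1 h2 e
  have a3 : ∀ y, (h.pw none w).1 y = 0 := fun y =>
    (congrArg (hv ν none y) ((smul_eq_zero.1 (a1 y)).resolve_left h0)).trans hv_zero
  simp only [Fintype.sum_option, a3, zero_add, smul_zero, sub_zero] at a2 e
  refine Subtype.ext (_root_.funext fun y => ?_)
  rcases isEmpty_or_nonempty η with h0 | ⟨⟨i⟩⟩
  · simpa using a2 y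
  simp only [Fintype.sum_subsingleton _ i] at a2
  have := h.orth' (i := some i) w y
  rw [← show w = h.pw (some i) w from Subtype.ext (_root_.funext a2), e, real_inner_smul_right,
    mul_eq_zero, neg_eq_zero, inner_self_eq_zero] at this
  exact this.resolve_left h0

/-- the kernel consists of parallel forms -/
theorem par (hc : 0 < c) (w : h.S) (e : ∀ y, (LY F d W Φ).app F w.1 y = 0) (y : Y) :
    fp (w.1 y) = 0 ∧ ∀ a, nab I F.e (cY F W) a w.1 y = 0 := by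
  obtain ⟨-, a2, a3⟩ := h.main w (ε := 0) (by simpa using h.psc.pos) (by simpa using hc)
    fun y => by rw [e, neg_zero, zero_smul]
  refine ⟨by rw [a2, map_sum]; exact sum_eq_zero fun _ _ => rfl, fun a => ?_⟩
  rw [_root_.funext a2, nab_sum a _ fun i => (h.pw i w).2.1 y]
  refine sum_eq_zero fun i _ => (h.N_hv (h.sm_ct w.2.1) (h.ct_mem (w.2.2.2 y)) a).trans ?_
  have := zero_of F (h.cont_gi (i := i) w.2.1) (fun y => by unfold gi; positivity) (by simp [a3]) y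
  rw [gi, sum_eq_zero_iff_of_nonneg fun _ _ => by positivity] at this
  rw [show nab I F.e (aY W) a _ y = 0 by simpa using this a (mem_univ _), hv_zero]

end FZ

end Crest.Agent.X212.Inv14
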